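import Vale.Agent.P234.MathlibUsed

open Bundle Manifold Set Filter
open scoped ContDiff Manifold Topology

namespace Vale.Agent.P234

noncomputable section

/-- The quadratic cost. -/
def cost {M : Type*} [MetricSpace M] (x y : M) : ℝ := dist x y ^ 2 / 2

variable {E : Type*} [NormedAddCommGroup E] [NormedSpace ℝ E]
  {M : Type*} [MetricSpace M] [ChartedSpace E M]
  [RiemannianBundle (fun x : M => TangentSpace 𝓘(ℝ, E) x)]

/-- Characterisation of the Riemannian exponential map of a compact Riemannian manifold. -/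
structure IsExp [IsManifold 𝓘(ℝ, E) ∞ M] (e : ∀ x : M, TangentSpace 𝓘(ℝ, E) x → M) : Prop where
  smooth : ContMDiff (𝓘(ℝ, E).tangent) 𝓘(ℝ, E) ∞
    (fun p : TangentBundle 𝓘(ℝ, E) M => e p.proj p.snd)
  map_zero : ∀ x : M, e x 0 = x
  velocity : ∀ (x : M) (v : TangentSpace 𝓘(ℝ, E) x),
    mfderiv 𝓘(ℝ, ℝ) 𝓘(ℝ, E) (fun t : ℝ => e x (t • v)) 0 (1 : ℝ) = v
  minimizing : ∃ ρ : ℝ, 0 < ρ ∧ ∀ (x : M) (v : TangentSpace 𝓘(ℝ, E) x) (s t : ℝ),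
    ‖v‖ * |t - s| ≤ ρ → dist (e x (s • v)) (e x (t • v)) = ‖v‖ * |t - s|

/-- The tangent injectivity domain. -/
def injDomain (e : ∀ x : M, TangentSpace 𝓘(ℝ, E) x → M) (x : M) :
    Set (TangentSpace 𝓘(ℝ, E) x) :=
  {v | ∃ a : ℝ, 1 < a ∧ dist x (e x (a • v)) = a * ‖v‖}

/-- The Ma-Trudinger-Wang tensor. -/
def mtw (e : ∀ x : M, TangentSpace 𝓘(ℝ, E) x → M) (x : M)
    (v ξ η : TangentSpace 𝓘(ℝ, E) x) : ℝ :=
  -(3 / 2) * iteratedDeriv 2 (fun s : ℝ =>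
    iteratedDeriv 2 (fun t : ℝ => cost (e x (t • ξ)) (e x (v + s • η))) 0) 0

/-- The weak Ma-Trudinger-Wang condition. -/
def WeakMTW (e : ∀ x : M, TangentSpace 𝓘(ℝ, E) x → M) : Prop :=
  ∀ (x : M) (v : TangentSpace 𝓘(ℝ, E) x), v ∈ injDomain e x →
    ∀ ξ η : TangentSpace 𝓘(ℝ, E) x, inner ℝ ξ η = 0 → 0 ≤ mtw e x v ξ η

end

end Vale.Agent.P234
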