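import Mathlib.Algebra.Order.Archimedean.Real.Hom
import Mathlib.Algebra.Order.Ring.Star
import Mathlib.Algebra.Order.Star.Real
import Mathlib.Algebra.Ring.IsFormallyReal
import Mathlib.Analysis.Calculus.BumpFunction.FiniteDimension
import Mathlib.Analysis.Calculus.ContDiff.FiniteDimension
import Mathlib.Analysis.Calculus.Deriv.Prod
import Mathlib.Analysis.Calculus.FDeriv.Symmetric
import Mathlib.Analysis.Calculus.ImplicitContDiff
import Mathlib.Analysis.Convex.Caratheodory
import Mathlib.Analysis.Convex.Deriv
import Mathlib.Analysis.InnerProductSpace.Dual
import Mathlib.Geometry.Manifold.Algebra.Structures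
import Mathlib.Geometry.Manifold.Riemannian.Basic
import Mathlib.Geometry.Manifold.Sheaf.Basic
import Mathlib.LinearAlgebra.AffineSpace.FiniteDimensional
import Mathlib.Order.CompletePartialOrder
import Mathlib.RingTheory.Etale.Weakly
import Mathlib.RingTheory.Flat.TorsionFree
import Mathlib.RingTheory.RegularLocalRing.Defs
import Mathlib.RingTheory.SimpleRing.Principal
import Mathlib.RingTheory.TotallySplit
import Mathlib.Tactic
import Mathlib.Topology.Compactness.CompactlyGeneratedSpace
import Mathlib.Topology.Filter
import Mathlib.Topology.MetricSpace.Sequences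
import Mathlib.Topology.Order.LowerUpperTopology

/-! The part of Mathlib that the development of this folder uses. -/
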